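import Vale.Agent.P207.SPH.H234.Eig

/-!
P207, project SPH, row R11, piece [B]: a symmetric matrix is determined by projections which
realise the sums of its largest eigenvalues.
-/

open Matrix

noncomputable section

namespace Vale.Agent.P207.SPH.H761

/-! ### Abel sums -/

section abel

variable (E : ℕ → ℝ)

/-- partial sums -/
def Cs (k : ℕ) : ℝ := ∑ i ∈ Finset.range k, E i

theorem Cs_succ (k : ℕ) : Cs E (k + 1) = Cs E k + E k := Finset.sum_range_succ _ _

theorem abel1 (n : ℕ) : ∑ j ∈ Finset.range n, (E j - E (j + 1)) * Cs E (j + 1)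
    = ∑ i ∈ Finset.range n, E i ^ 2 - E n * Cs E n := by
  induction n with
  | zero => simp [Cs]
  | succ n ih =>
    rw [Finset.sum_range_succ, Finset.sum_range_succ, ih, Cs_succ]
    ring

theorem abel2 (l n : ℕ) : ∑ j ∈ Finset.range n, (E j - E (j + 1)) * ((min j l : ℕ) + 1 : ℝ)
    = Cs E (min n (l + 1)) - E n * (min n (l + 1) : ℕ) := by
  induction n with
  | zero => simp [Cs]
  | succ n ih =>
    rw [Finset.sum_range_succ, ih]
    rcases le_or_gt n l with h | h
    · have e1 : min n (l + 1) = n := by omega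
      have e2 : min n l = n := by omega
      have e3 : min (n + 1) (l + 1) = n + 1 := by omega
      rw [e1, e2, e3, Cs_succ]
      push_cast
      ring
    · have e1 : min n (l + 1) = l + 1 := by omega
      have e2 : min n l = l := by omega
      have e3 : min (n + 1) (l + 1) = l + 1 := by omega
      rw [e1, e2, e3]
      push_cast
      ring

end abel

theorem trace_gram_nonneg {m : ℕ} (A : Mt m) : 0 ≤ (Aᵀ * A).trace := by
  rw [Matrix.trace]
  refine Finset.sum_nonneg fun i _ => ?_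
  rw [diag_apply, mul_apply]
  exact Finset.sum_nonneg fun j _ => by rw [transpose_apply]; exact mul_self_nonneg _

theorem eq_zero_of_trace_gram {m : ℕ} (A : Mt m) (h : (Aᵀ * A).trace ≤ 0) : A = 0 := by
  have h0 := le_antisymm h (trace_gram_nonneg A)
  rw [Matrix.trace] at h0
  have h1 := (Finset.sum_eq_zero_iff_of_nonneg fun i _ => by
    rw [diag_apply, mul_apply]
    exact Finset.sum_nonneg fun j _ => by rw [transpose_apply]; exact mul_self_nonneg _).1 h0
  ext i j
  have h2 := h1 j (Finset.mem_univ j)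
  rw [diag_apply, mul_apply] at h2
  have h3 := (Finset.sum_eq_zero_iff_of_nonneg fun i _ => by
    rw [transpose_apply]; exact mul_self_nonneg _).1 h2 i (Finset.mem_univ i)
  rw [transpose_apply] at h3
  exact mul_self_eq_zero.1 h3

theorem trace_proj_le {m : ℕ} (P Q : Mt m) (hP : Pᵀ = P) (hP2 : P * P = P) (hQ : Qᵀ = Q)
    (hQ2 : Q * Q = Q) : (P * Q).trace ≤ P.trace := by
  have h := trace_gram_nonneg ((1 - Q) * P)
  have e1 : ((1 - Q) * P)ᵀ = P * (1 - Q) := by
    rw [transpose_mul, transpose_sub, transpose_one, hP, hQ]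
  have e2 : (1 - Q) * (1 - Q) = 1 - Q := by
    rw [sub_mul, mul_sub, mul_sub, hQ2]
    simp
  have e3 : P * (1 - Q) * ((1 - Q) * P) = P * (1 - Q) * P := by
    rw [Matrix.mul_assoc, ← Matrix.mul_assoc (1 - Q), e2, ← Matrix.mul_assoc]
  rw [e1, e3, trace_mul_comm, ← Matrix.mul_assoc, hP2, Matrix.mul_sub, Matrix.mul_one,
    trace_sub] at h
  linarith

/-- **[B]** -/
theorem sum_proj {m : ℕ} (S : Mt m) (hS : Sᵀ = S) (hpos : ∀ x, 0 ≤ x ⬝ᵥ (S *ᵥ x))
    (c : ℕ → ℝ) (hc : ∀ k ≤ m, sg k S = c k) (P : Fin m → Mt m) (hs : ∀ j, (P j)ᵀ = P j)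
    (hp : ∀ j, P j * P j = P j) (ht : ∀ j, (P j).trace = (j : ℕ) + 1)
    (hc' : ∀ j, (P j * S).trace = c (j + 1)) :
    S = ∑ j : Fin m, ((c (j + 1) - c j) - (if (j : ℕ) + 1 < m then c (j + 2) - c (j + 1) else 0))
      • P j := by
  obtain ⟨O, e, hO, he, hSe, hsg⟩ := H234.eigD m S hS
  set E : ℕ → ℝ := fun i => if h : i < m then e ⟨i, h⟩ else 0 with hE
  have Em : E m = 0 := by simp [hE]
  have Ei : ∀ i : Fin m, E i = e i := fun i => by simp [hE]
  have hO' : O * Oᵀ = 1 := mul_eq_one_comm.1 hO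
  -- eigenvalues are nonnegative
  have he0 : ∀ i, 0 ≤ e i := by
    intro i
    have h1 := hpos (O *ᵥ Pi.single i 1)
    have h2 : (O *ᵥ Pi.single i 1) ⬝ᵥ (S *ᵥ (O *ᵥ Pi.single i 1)) = e i := by
      have h3 : (Pi.single i 1 : Fin m → ℝ) ⬝ᵥ ((Oᵀ * S * O) *ᵥ Pi.single i 1)
          = (O *ᵥ Pi.single i 1) ⬝ᵥ (S *ᵥ (O *ᵥ Pi.single i 1)) := by
        rw [← mulVec_mulVec, ← mulVec_mulVec, dotProduct_mulVec, vecMul_transpose]
      rw [← h3]
      have h4 : Oᵀ * S * O = diagonal e := by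
        rw [hSe, ← Matrix.mul_assoc, ← Matrix.mul_assoc, hO, Matrix.one_mul, Matrix.mul_assoc,
          hO, Matrix.mul_one]
      rw [h4]
      simp [mulVec_single]
    rwa [h2] at h1
  have hck : ∀ k ≤ m, c k = Cs E k := by
    intro k hk
    rw [← hc k hk, hsg k hk, psum, Cs]
    have h1 : ∀ i : Fin m, (if (i : ℕ) < k then e i else 0)
        = (fun j : ℕ => if j < k then E j else 0) (i : ℕ) := fun i => by simp [Ei]
    rw [Finset.sum_congr rfl fun i _ => h1 i, Fin.sum_univ_eq_sum_range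
      (fun j : ℕ => if j < k then E j else 0) m, ← Finset.sum_filter]
    refine Finset.sum_congr ?_ fun _ _ => rfl
    ext i
    simp only [Finset.mem_filter, Finset.mem_range]
    omega
  have hδ : ∀ j : Fin m, ((c (j + 1) - c j) -
      (if (j : ℕ) + 1 < m then c (j + 2) - c (j + 1) else 0)) = E j - E (j + 1) := by
    intro j
    have hj := j.2
    rw [hck _ (by omega : (j : ℕ) + 1 ≤ m), hck _ (by omega : (j : ℕ) ≤ m), Cs_succ]
    split_ifs with h
    · rw [hck _ (by omega : (j : ℕ) + 2 ≤ m), Cs_succ E (j + 1), Cs_succ]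
      ring
    · have h1 : (j : ℕ) + 1 = m := by omega
      rw [h1, Em]
      ring
  have hδ0 : ∀ j : Fin m, 0 ≤ E j - E (j + 1) := by
    intro j
    rw [Ei]
    by_cases h : (j : ℕ) + 1 < m
    · have h1 : E (j + 1) = e ⟨j + 1, h⟩ := by simp [hE, h]
      rw [h1]
      exact sub_nonneg.2 (he (Fin.le_def.2 (by simp)))
    · have h1 : E (j + 1) = 0 := by simp [hE, h]
      rw [h1, sub_zero]
      exact he0 j
  simp_rw [hδ]
  set R : Mt m := ∑ j : Fin m, (E j - E (j + 1)) • P j with hR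
  have hRs : Rᵀ = R := by
    rw [hR, transpose_sum]
    exact Finset.sum_congr rfl fun j _ => by rw [transpose_smul, hs]
  -- the traces
  have t1 : (S * S).trace = ∑ i ∈ Finset.range m, E i ^ 2 := by
    have h1 : S * S = O * (diagonal e * diagonal e) * Oᵀ := by
      have : O * diagonal e * Oᵀ * (O * diagonal e * Oᵀ)
          = O * diagonal e * (Oᵀ * O) * diagonal e * Oᵀ := by
        simp only [Matrix.mul_assoc]
      rw [hSe, this, hO, Matrix.mul_one]
      simp only [Matrix.mul_assoc]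
    rw [h1, trace_mul_comm, ← Matrix.mul_assoc, hO, Matrix.one_mul, diagonal_mul_diagonal,
      trace_diagonal, ← Fin.sum_univ_eq_sum_range (fun i => E i ^ 2) m]
    refine Finset.sum_congr rfl fun i _ => ?_
    rw [Ei]
    ring
  have t2 : (R * S).trace = ∑ i ∈ Finset.range m, E i ^ 2 := by
    rw [hR, Finset.sum_mul, trace_sum]
    have h1 : ∀ j : Fin m, ((E j - E (j + 1)) • P j * S).trace
        = (fun i : ℕ => (E i - E (i + 1)) * Cs E (i + 1)) (j : ℕ) := by
      intro j
      rw [Matrix.smul_mul, trace_smul, hc', hck _ j.2, smul_eq_mul]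
    rw [Finset.sum_congr rfl fun j _ => h1 j, Fin.sum_univ_eq_sum_range
      (fun i : ℕ => (E i - E (i + 1)) * Cs E (i + 1)) m, abel1, Em]
    ring
  have t3 : (R * R).trace ≤ ∑ i ∈ Finset.range m, E i ^ 2 := by
    have h1 : (R * R).trace = ∑ l : Fin m, ∑ j : Fin m,
        (E l - E (l + 1)) * ((E j - E (j + 1)) * (P j * P l).trace) := by
      rw [hR, Finset.sum_mul, trace_sum]
      rw [Finset.sum_comm]
      refine Finset.sum_congr rfl fun j _ => ?_
      rw [Matrix.mul_sum, trace_sum]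
      refine Finset.sum_congr rfl fun l _ => ?_
      rw [Matrix.smul_mul, trace_smul, Matrix.mul_smul, trace_smul, smul_eq_mul, smul_eq_mul]
      ring
    have h2 : ∀ l j : Fin m, (P j * P l).trace ≤ ((min (j : ℕ) l : ℕ) + 1 : ℝ) := by
      intro l j
      rcases le_total (j : ℕ) l with h | h
      · rw [min_eq_left h]
        exact (trace_proj_le (P j) (P l) (hs j) (hp j) (hs l) (hp l)).trans (le_of_eq (ht j))
      · rw [min_eq_right h, trace_mul_comm]
        exact (trace_proj_le (P l) (P j) (hs l) (hp l) (hs j) (hp j)).trans (le_of_eq (ht l))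
    rw [h1]
    have h3 : ∑ l : Fin m, ∑ j : Fin m,
        (E l - E (l + 1)) * ((E j - E (j + 1)) * (P j * P l).trace)
        ≤ ∑ l : Fin m, (E l - E (l + 1)) * Cs E (l + 1) := by
      refine Finset.sum_le_sum fun l _ => ?_
      rw [← Finset.mul_sum]
      refine mul_le_mul_of_nonneg_left ?_ (hδ0 l)
      have h4 : ∑ j : Fin m, (E j - E (j + 1)) * (P j * P l).trace
          ≤ ∑ j : Fin m, (fun i : ℕ => (E i - E (i + 1)) * ((min i (l : ℕ) : ℕ) + 1 : ℝ))
            (j : ℕ) :=
        Finset.sum_le_sum fun j _ => mul_le_mul_of_nonneg_left (h2 l j) (hδ0 j)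
      refine h4.trans (le_of_eq ?_)
      rw [Fin.sum_univ_eq_sum_range
        (fun i : ℕ => (E i - E (i + 1)) * ((min i (l : ℕ) : ℕ) + 1 : ℝ)) m, abel2, Em,
        min_eq_right (by have := l.2; omega : (l : ℕ) + 1 ≤ m)]
      ring
    refine h3.trans (le_of_eq ?_)
    rw [Fin.sum_univ_eq_sum_range (fun i : ℕ => (E i - E (i + 1)) * Cs E (i + 1)) m, abel1, Em]
    ring
  have h5 : S - R = 0 := by
    apply eq_zero_of_trace_gram
    rw [transpose_sub, hS, hRs, sub_mul, mul_sub, mul_sub, trace_sub, trace_sub, trace_sub,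
      trace_mul_comm S R, t1, t2]
    linarith
  exact sub_eq_zero.1 h5

end Vale.Agent.P207.SPH.H761
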