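import Vale.Agent.P207.SPH.Defs

/-!
P207, project SPH, row R5: `topV` of `Aᵀ A` and `N` are comparable.
-/

open Matrix MeasureTheory Set Filter Topology

noncomputable section

namespace Vale.Agent.P207.SPH.H761

/-- conjugated quadratic form -/
theorem quad_conj {k l : ℕ} (B : Matrix (Fin k) (Fin l) ℝ) (P : Mt k) (x : Fin l → ℝ) :
    x ⬝ᵥ ((Bᵀ * P * B) *ᵥ x) = (B *ᵥ x) ⬝ᵥ (P *ᵥ (B *ᵥ x)) := by
  rw [← mulVec_mulVec, ← mulVec_mulVec, dotProduct_mulVec, vecMul_transpose]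

theorem quad_gram {k l : ℕ} (B : Matrix (Fin k) (Fin l) ℝ) (x : Fin l → ℝ) :
    x ⬝ᵥ ((Bᵀ * B) *ᵥ x) = (B *ᵥ x) ⬝ᵥ (B *ᵥ x) := by
  rw [← mulVec_mulVec, dotProduct_mulVec, vecMul_transpose]

theorem conj_symm {k l : ℕ} (B : Matrix (Fin k) (Fin l) ℝ) {P : Mt k} (hP : Pᵀ = P) :
    (Bᵀ * P * B)ᵀ = Bᵀ * P * B := by
  rw [transpose_mul, transpose_mul, transpose_transpose, hP, Matrix.mul_assoc]

theorem herm {k : ℕ} {H : Mt k} (hH : Hᵀ = H) : H.IsHermitian := by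
  rw [Matrix.IsHermitian, conjTranspose_eq_transpose_of_trivial]; exact hH

/-- spectral theorem -/
theorem diagH {k : ℕ} (H : Mt k) (hH : Hᵀ = H) :
    ∃ (R : Mt k) (e : Fin k → ℝ), Rᵀ * R = 1 ∧ Rᵀ * H * R = diagonal e := by
  have h := herm hH
  refine ⟨h.eigenvectorUnitary, h.eigenvalues, ?_, ?_⟩
  · have h1 := Unitary.coe_star_mul_self h.eigenvectorUnitary
    rwa [star_eq_conjTranspose, conjTranspose_eq_transpose_of_trivial] at h1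
  · have h1 := h.conjStarAlgAut_star_eigenvectorUnitary
    rw [Unitary.conjStarAlgAut_star_apply, star_eq_conjTranspose,
      conjTranspose_eq_transpose_of_trivial] at h1
    simpa using h1

theorem single_quad {k : ℕ} (e : Fin k → ℝ) (i : Fin k) :
    (Pi.single i 1) ⬝ᵥ (diagonal e *ᵥ (Pi.single i 1 : Fin k → ℝ)) = e i := by
  simp [mulVec_single]

theorem single_one {k : ℕ} (i : Fin k) :
    (Pi.single i 1 : Fin k → ℝ) ⬝ᵥ (Pi.single i 1) = 1 := by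
  simp

theorem single_ne {k : ℕ} (i : Fin k) : (Pi.single i 1 : Fin k → ℝ) ≠ 0 := by
  intro h
  have := congrFun h i
  simp at this

/-- a normalising matrix -/
theorem norm1 {k : ℕ} (H : Mt k) (hH : Hᵀ = H) (hp : ∀ x ≠ 0, 0 < x ⬝ᵥ (H *ᵥ x)) :
    ∃ Q : Mt k, Qᵀ * H * Q = 1 := by
  obtain ⟨R, e, hR, hRH⟩ := diagH H hH
  have he : ∀ i, 0 < e i := by
    intro i
    have h1 := single_quad e i
    rw [← hRH, quad_conj] at h1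
    rw [← h1]
    apply hp
    intro h0
    have h2 : (Rᵀ * R) *ᵥ (Pi.single i 1 : Fin k → ℝ) = 0 := by
      rw [← mulVec_mulVec, h0, mulVec_zero]
    rw [hR, one_mulVec] at h2
    exact single_ne i h2
  refine ⟨R * diagonal fun i => (Real.sqrt (e i))⁻¹, ?_⟩
  rw [transpose_mul, diagonal_transpose, Matrix.mul_assoc, Matrix.mul_assoc,
    ← Matrix.mul_assoc H, ← Matrix.mul_assoc Rᵀ, ← Matrix.mul_assoc Rᵀ, hRH,
    diagonal_mul_diagonal, diagonal_mul_diagonal, ← diagonal_one]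
  congr 1
  funext i
  have h2 := Real.mul_self_sqrt (he i).le
  have h3 : Real.sqrt (e i) ≠ 0 := (Real.sqrt_pos.2 (he i)).ne'
  field_simp
  nlinarith [h2]

/-- the determinant is monotone -/
theorem det_mono {k : ℕ} (P Q : Mt k) (hP : Pᵀ = P) (hQ : Qᵀ = Q)
    (hP0 : ∀ x, 0 ≤ x ⬝ᵥ (P *ᵥ x)) (hQ0 : ∀ x ≠ 0, 0 < x ⬝ᵥ (Q *ᵥ x))
    (hle : ∀ x, x ⬝ᵥ (P *ᵥ x) ≤ x ⬝ᵥ (Q *ᵥ x)) : P.det ≤ Q.det := by
  obtain ⟨B, hB⟩ := norm1 Q hQ hQ0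
  obtain ⟨R, e, hR, hRH⟩ := diagH (Bᵀ * P * B) (conj_symm B hP)
  have he0 : ∀ i, 0 ≤ e i := by
    intro i
    rw [← single_quad e i, ← hRH, quad_conj, quad_conj]
    exact hP0 _
  have he1 : ∀ i, e i ≤ 1 := by
    intro i
    rw [← single_quad e i, ← hRH, quad_conj, quad_conj]
    refine (hle _).trans ?_
    rw [← quad_conj, hB, one_mulVec, ← quad_gram, hR, one_mulVec, single_one]
  have hd : (Bᵀ * P * B).det = ∏ i, e i := by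
    have h1 := congrArg Matrix.det hRH
    have h2 := congrArg Matrix.det hR
    rw [det_mul, det_mul, det_diagonal] at h1
    rw [det_mul, det_one] at h2
    rw [← h1]
    linear_combination (-(Bᵀ * P * B).det) * h2
  have hd1 : (Bᵀ * P * B).det ≤ 1 := by
    rw [hd]
    exact Finset.prod_le_one (fun i _ => he0 i) fun i _ => he1 i
  have hb := congrArg Matrix.det hB
  rw [det_mul, det_mul, det_transpose, det_one] at hb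
  rw [det_mul, det_mul, det_transpose] at hd1
  have hB0 : B.det ≠ 0 := by
    intro h0
    rw [h0] at hb
    simp at hb
  have hB2 : 0 < B.det * B.det := mul_self_pos.2 hB0
  by_contra hne
  push Not at hne
  nlinarith [mul_lt_mul_of_pos_left hne hB2]

theorem psd_det_nonneg {k : ℕ} (P : Mt k) (hP : Pᵀ = P)
    (hP0 : ∀ x, 0 ≤ x ⬝ᵥ (P *ᵥ x)) : 0 ≤ P.det :=
  (PosSemidef.of_dotProduct_mulVec_nonneg (herm hP) fun x => by simpa using hP0 x).det_nonneg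

theorem pd_det_pos {k : ℕ} (P : Mt k) (hP : Pᵀ = P)
    (hP0 : ∀ x ≠ 0, 0 < x ⬝ᵥ (P *ᵥ x)) : 0 < P.det :=
  (PosDef.of_dotProduct_mulVec_pos (herm hP) fun x hx => by simpa using hP0 x hx).det_pos

variable {m k : ℕ}

theorem inj_of {P : Mt m} {W : Matrix (Fin m) (Fin k) ℝ} (hW : Wᵀ * P * W = 1)
    (y : Fin k → ℝ) (hy : y ≠ 0) : W *ᵥ y ≠ 0 := by
  intro h0
  apply hy
  have h2 : (Wᵀ * P * W) *ᵥ y = 0 := by
    rw [← mulVec_mulVec, h0, mulVec_zero]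
  rwa [hW, one_mulVec] at h2

/-- monotonicity of the squared volume of a frame in the form -/
theorem frame_mono {G1 G2 : Mt m} (h1 : G1ᵀ = G1) (h2 : G2ᵀ = G2)
    (h10 : ∀ x, 0 ≤ x ⬝ᵥ (G1 *ᵥ x)) (h20 : ∀ x ≠ 0, 0 < x ⬝ᵥ (G2 *ᵥ x)) {c : ℝ} (hc : 0 < c)
    (hle : ∀ x, x ⬝ᵥ (G1 *ᵥ x) ≤ c * (x ⬝ᵥ (G2 *ᵥ x)))
    {W : Matrix (Fin m) (Fin k) ℝ} (hW : ∀ y ≠ 0, W *ᵥ y ≠ 0) :
    (Wᵀ * G1 * W).det ≤ c ^ k * (Wᵀ * G2 * W).det := by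
  have h := det_mono (Wᵀ * G1 * W) (c • (Wᵀ * G2 * W)) (conj_symm W h1)
    (by rw [transpose_smul, conj_symm W h2])
    (fun x => by rw [quad_conj]; exact h10 _)
    (fun x hx => by
      rw [smul_mulVec, dotProduct_smul, quad_conj, smul_eq_mul]
      exact mul_pos hc (h20 _ (hW x hx)))
    (fun x => by
      rw [smul_mulVec, dotProduct_smul, quad_conj, quad_conj, smul_eq_mul]
      exact hle _)
  rwa [det_smul, Fintype.card_fin] at h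

/-- change of the normalising form -/
theorem renorm {P P' G : Mt m} (hP : Pᵀ = P) (hP0 : ∀ x ≠ 0, 0 < x ⬝ᵥ (P *ᵥ x))
    (hG : Gᵀ = G) (hG0 : ∀ x, 0 ≤ x ⬝ᵥ (G *ᵥ x)) {q : ℝ} (hq : 0 < q)
    (hle : ∀ x, x ⬝ᵥ (P *ᵥ x) ≤ q * (x ⬝ᵥ (P' *ᵥ x)))
    {W : Matrix (Fin m) (Fin k) ℝ} (hW : Wᵀ * P' * W = 1) :
    ∃ W' : Matrix (Fin m) (Fin k) ℝ, W'ᵀ * P * W' = 1 ∧
      (Wᵀ * G * W).det ≤ q ^ k * (W'ᵀ * G * W').det := by
  have hH0 : ∀ y ≠ 0, 0 < y ⬝ᵥ ((Wᵀ * P * W) *ᵥ y) := fun y hy => by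
    rw [quad_conj]; exact hP0 _ (inj_of hW y hy)
  obtain ⟨Q, hQ⟩ := norm1 (Wᵀ * P * W) (conj_symm W hP) hH0
  have e1 : ∀ F : Mt m, (W * Q)ᵀ * F * (W * Q) = Qᵀ * (Wᵀ * F * W) * Q := by
    intro F
    rw [transpose_mul]
    simp only [Matrix.mul_assoc]
  refine ⟨W * Q, by rw [e1, hQ], ?_⟩
  have hd := congrArg Matrix.det hQ
  rw [det_mul, det_mul, det_transpose, det_one] at hd
  have hH : (Wᵀ * P * W).det ≤ q ^ k := by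
    have h := det_mono (Wᵀ * P * W) (q • (1 : Mt k)) (conj_symm W hP)
      (by rw [transpose_smul, transpose_one])
      (fun x => by
        by_cases hx : x = 0
        · subst hx; simp
        · exact (hH0 x hx).le)
      (fun x hx => by
        rw [smul_mulVec, dotProduct_smul, one_mulVec, smul_eq_mul]
        exact mul_pos hq (lt_of_le_of_ne (by
          rw [dotProduct]; exact Finset.sum_nonneg fun i _ => mul_self_nonneg _)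
          (fun h => hx (dotProduct_self_eq_zero.1 h.symm))))
      (fun x => by
        rw [smul_mulVec, dotProduct_smul, one_mulVec, smul_eq_mul, quad_conj]
        refine (hle _).trans (le_of_eq ?_)
        rw [← quad_conj, hW, one_mulVec])
    rwa [det_smul, Fintype.card_fin, det_one, mul_one] at h
  have hG1 : 0 ≤ (Wᵀ * G * W).det := psd_det_nonneg _ (conj_symm W hG) fun x => by
    rw [quad_conj]; exact hG0 _
  rw [e1, det_mul, det_mul, det_transpose]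
  have h5 : Q.det * Q.det * (Wᵀ * P * W).det = 1 := by linarith
  have h6 : (Wᵀ * G * W).det = (Wᵀ * P * W).det * (Q.det * (Wᵀ * G * W).det * Q.det) := by
    linear_combination (-(Wᵀ * G * W).det) * h5
  have h7 : 0 ≤ Q.det * (Wᵀ * G * W).det * Q.det := by
    nlinarith [mul_nonneg (mul_self_nonneg Q.det) hG1]
  calc (Wᵀ * G * W).det = (Wᵀ * P * W).det * (Q.det * (Wᵀ * G * W).det * Q.det) := h6
    _ ≤ q ^ k * (Q.det * (Wᵀ * G * W).det * Q.det) := mul_le_mul_of_nonneg_right hH h7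

/-- the values of the volume on normalised frames -/
def vals (k : ℕ) (P G : Mt m) : Set ℝ :=
  {x | ∃ W : Matrix (Fin m) (Fin k) ℝ, Wᵀ * P * W = 1 ∧ x = (Wᵀ * G * W).det}

theorem vals_nonempty (hk : k ≤ m) {P : Mt m} (hP : Pᵀ = P)
    (hP0 : ∀ x ≠ 0, 0 < x ⬝ᵥ (P *ᵥ x)) :
    ∃ W : Matrix (Fin m) (Fin k) ℝ, Wᵀ * P * W = 1 := by
  obtain ⟨Q, hQ⟩ := norm1 P hP hP0
  refine ⟨Q * (1 : Mt m).submatrix id (Fin.castLE hk), ?_⟩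
  rw [transpose_mul]
  have : ((1 : Mt m).submatrix id (Fin.castLE hk))ᵀ * Qᵀ * P *
      (Q * (1 : Mt m).submatrix id (Fin.castLE hk))
      = ((1 : Mt m).submatrix id (Fin.castLE hk))ᵀ * (Qᵀ * P * Q) *
        (1 : Mt m).submatrix id (Fin.castLE hk) := by
    simp only [Matrix.mul_assoc]
  rw [this, hQ, Matrix.mul_one]
  ext i j
  rw [mul_apply]
  simp only [transpose_apply, submatrix_apply, id_eq, one_apply, mul_ite, mul_one, mul_zero]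
  rw [Finset.sum_ite_eq' Finset.univ (Fin.castLE hk j)]
  simp only [Finset.mem_univ, if_true]
  by_cases h : i = j
  · simp [h]
  · rw [if_neg h, if_neg]
    intro h2
    exact h ((Fin.castLE_injective hk h2).symm)

theorem vals_bdd {P G : Mt m} (hP : Pᵀ = P) (hP0 : ∀ x ≠ 0, 0 < x ⬝ᵥ (P *ᵥ x))
    (hG : Gᵀ = G) (hG0 : ∀ x, 0 ≤ x ⬝ᵥ (G *ᵥ x)) {c : ℝ} (hc : 0 < c)
    (hle : ∀ x, x ⬝ᵥ (G *ᵥ x) ≤ c * (x ⬝ᵥ (P *ᵥ x))) : BddAbove (vals k P G) := by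
  refine ⟨c ^ k, ?_⟩
  rintro x ⟨W, hW, rfl⟩
  have h := frame_mono (k := k) hG hP hG0 hP0 hc hle (inj_of hW)
  rwa [hW, det_one, mul_one] at h

/-- comparison of the suprema -/
theorem sup_le (hk : k ≤ m) {P P' G G' : Mt m} (hP : Pᵀ = P) (hP' : P'ᵀ = P')
    (hP0 : ∀ x ≠ 0, 0 < x ⬝ᵥ (P *ᵥ x)) (hP0' : ∀ x ≠ 0, 0 < x ⬝ᵥ (P' *ᵥ x))
    (hG : Gᵀ = G) (hG' : G'ᵀ = G') (hG0 : ∀ x ≠ 0, 0 < x ⬝ᵥ (G *ᵥ x))
    (hG0' : ∀ x, 0 ≤ x ⬝ᵥ (G' *ᵥ x)) {q c d : ℝ} (hq : 0 < q) (hc : 0 < c) (hd : 0 < d)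
    (hleP : ∀ x, x ⬝ᵥ (P *ᵥ x) ≤ q * (x ⬝ᵥ (P' *ᵥ x)))
    (hleG : ∀ x, x ⬝ᵥ (G' *ᵥ x) ≤ c * (x ⬝ᵥ (G *ᵥ x)))
    (hbd : ∀ x, x ⬝ᵥ (G *ᵥ x) ≤ d * (x ⬝ᵥ (P *ᵥ x))) :
    sSup (vals k P' G') ≤ (c * q) ^ k * sSup (vals k P G) := by
  have hG00 : ∀ x, 0 ≤ x ⬝ᵥ (G *ᵥ x) := fun x => by
    by_cases hx : x = 0
    · subst hx; simp
    · exact (hG0 x hx).le
  obtain ⟨W0, hW0⟩ := vals_nonempty hk hP' hP0'
  refine csSup_le ⟨_, W0, hW0, rfl⟩ ?_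
  rintro x ⟨W, hW, rfl⟩
  have h1 := frame_mono (k := k) hG' hG hG0' hG0 hc hleG (inj_of hW)
  obtain ⟨W', hW', h2⟩ := renorm (k := k) hP hP0 hG hG00 hq hleP hW
  have h3 : (W'ᵀ * G * W').det ≤ sSup (vals k P G) :=
    le_csSup (vals_bdd hP hP0 hG hG00 hd hbd) ⟨W', hW', rfl⟩
  calc (Wᵀ * G' * W).det ≤ c ^ k * (Wᵀ * G * W).det := h1
    _ ≤ c ^ k * (q ^ k * (W'ᵀ * G * W').det) := by gcongr
    _ ≤ c ^ k * (q ^ k * sSup (vals k P G)) := by gcongr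
    _ = (c * q) ^ k * sSup (vals k P G) := by rw [mul_pow]; ring

theorem sup_pos (hk : k ≤ m) {P G : Mt m} (hP : Pᵀ = P)
    (hP0 : ∀ x ≠ 0, 0 < x ⬝ᵥ (P *ᵥ x)) (hG : Gᵀ = G) (hG0 : ∀ x ≠ 0, 0 < x ⬝ᵥ (G *ᵥ x))
    {d : ℝ} (hd : 0 < d) (hbd : ∀ x, x ⬝ᵥ (G *ᵥ x) ≤ d * (x ⬝ᵥ (P *ᵥ x))) :
    0 < sSup (vals k P G) := by
  have hG00 : ∀ x, 0 ≤ x ⬝ᵥ (G *ᵥ x) := fun x => by
    by_cases hx : x = 0
    · subst hx; simp
    · exact (hG0 x hx).le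
  obtain ⟨W0, hW0⟩ := vals_nonempty hk hP hP0
  refine lt_of_lt_of_le ?_ (le_csSup (vals_bdd hP hP0 hG hG00 hd hbd) ⟨W0, hW0, rfl⟩)
  refine pd_det_pos _ (conj_symm W0 hG) fun y hy => ?_
  rw [quad_conj]
  exact hG0 _ (inj_of hW0 y hy)

theorem dp_nonneg {l : ℕ} (x : Fin l → ℝ) : 0 ≤ x ⬝ᵥ x := by
  rw [dotProduct]; exact Finset.sum_nonneg fun i _ => mul_self_nonneg _

theorem dp_pos {l : ℕ} {x : Fin l → ℝ} (hx : x ≠ 0) : 0 < x ⬝ᵥ x :=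
  lt_of_le_of_ne (dp_nonneg x) fun h => hx (dotProduct_self_eq_zero.1 h.symm)

/-- `|S x|² ≤ β ⟨x, S x⟩` for `0 ≤ S ≤ β` -/
theorem sq_le {S : Mt m} (hS : Sᵀ = S) {β : ℝ} (hβ : 0 < β)
    (h0 : ∀ x, 0 ≤ x ⬝ᵥ (S *ᵥ x)) (hi : ∀ x, x ⬝ᵥ (S *ᵥ x) ≤ β * (x ⬝ᵥ x)) (x : Fin m → ℝ) :
    (S *ᵥ x) ⬝ᵥ (S *ᵥ x) ≤ β * (x ⬝ᵥ (S *ᵥ x)) := by
  have hs : ∀ u v : Fin m → ℝ, u ⬝ᵥ (S *ᵥ v) = (S *ᵥ u) ⬝ᵥ v := fun u v => by
    rw [dotProduct_mulVec, ← mulVec_transpose, hS]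
  have h1 := h0 (x - β⁻¹ • (S *ᵥ x))
  rw [mulVec_sub, mulVec_smul, sub_dotProduct, dotProduct_sub, dotProduct_sub,
    smul_dotProduct, smul_dotProduct, dotProduct_smul, dotProduct_smul, hs x (S *ᵥ x)] at h1
  have h2 := hi (S *ᵥ x)
  have h3 : β⁻¹ * β = 1 := inv_mul_cancel₀ hβ.ne'
  simp only [smul_eq_mul] at h1
  have h4 : 0 < β⁻¹ := inv_pos.2 hβ
  have h5 : β⁻¹ * (β⁻¹ * ((S *ᵥ x) ⬝ᵥ (S *ᵥ (S *ᵥ x)))) ≤ β⁻¹ * ((S *ᵥ x) ⬝ᵥ (S *ᵥ x)) := by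
    refine mul_le_mul_of_nonneg_left ?_ h4.le
    calc β⁻¹ * ((S *ᵥ x) ⬝ᵥ (S *ᵥ (S *ᵥ x)))
        ≤ β⁻¹ * (β * ((S *ᵥ x) ⬝ᵥ (S *ᵥ x))) := mul_le_mul_of_nonneg_left h2 h4.le
      _ = (S *ᵥ x) ⬝ᵥ (S *ᵥ x) := by rw [← mul_assoc, h3, one_mul]
  have h6 : β⁻¹ * ((S *ᵥ x) ⬝ᵥ (S *ᵥ x)) ≤ x ⬝ᵥ (S *ᵥ x) := by linarith
  calc (S *ᵥ x) ⬝ᵥ (S *ᵥ x) = β * (β⁻¹ * ((S *ᵥ x) ⬝ᵥ (S *ᵥ x))) := by
        rw [← mul_assoc, mul_inv_cancel₀ hβ.ne', one_mul]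
    _ ≤ β * (x ⬝ᵥ (S *ᵥ x)) := mul_le_mul_of_nonneg_left h6 hβ.le

/-- `α ⟨x, S x⟩ ≤ |S x|²` for `α ≤ S` -/
theorem le_sq {S : Mt m} {α : ℝ} (hα : 0 < α)
    (lo : ∀ x, α * (x ⬝ᵥ x) ≤ x ⬝ᵥ (S *ᵥ x)) (x : Fin m → ℝ) :
    α * (x ⬝ᵥ (S *ᵥ x)) ≤ (S *ᵥ x) ⬝ᵥ (S *ᵥ x) := by
  have h1 := dp_nonneg (S *ᵥ x - α • x)
  rw [sub_dotProduct, dotProduct_sub, dotProduct_sub, smul_dotProduct, smul_dotProduct,
    dotProduct_smul, dotProduct_smul, dotProduct_comm (S *ᵥ x) x] at h1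
  simp only [smul_eq_mul] at h1
  have h2 := mul_le_mul_of_nonneg_left (lo x) hα.le
  nlinarith

theorem dp_add_le {l : ℕ} (u v : Fin l → ℝ) :
    (u - v) ⬝ᵥ (u - v) ≤ 2 * (u ⬝ᵥ u) + 2 * (v ⬝ᵥ v) := by
  have h := dp_nonneg (u + v)
  rw [add_dotProduct, dotProduct_add, dotProduct_add] at h
  rw [sub_dotProduct, dotProduct_sub, dotProduct_sub]
  linarith

theorem dp_le_add {l : ℕ} (u v : Fin l → ℝ) :
    u ⬝ᵥ u ≤ 2 * ((u - v) ⬝ᵥ (u - v)) + 2 * (v ⬝ᵥ v) := by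
  have h := dp_add_le (u - v) (-v)
  rw [sub_neg_eq_add, sub_add_cancel, neg_dotProduct, dotProduct_neg, neg_neg] at h
  exact h

/-- **R5.** -/
theorem comp (h2 : GrowStmt) : CompStmt := by
  intro m X _ _ D Y Z hY hZ
  have ha := D.a_pos
  set β : ℝ := max D.b D.a with hβ
  have hβ0 : 0 < β := lt_of_lt_of_le ha (le_max_right _ _)
  -- bounds of `S`
  have sS : ∀ f, (D.S f)ᵀ = D.S f := fun f => by
    rw [Sys.S, transpose_add, D.sU, D.sV]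
  have loS : ∀ f x, 2 * D.a * (x ⬝ᵥ x) ≤ x ⬝ᵥ (D.S f *ᵥ x) := fun f x => by
    rw [Sys.S, add_mulVec, dotProduct_add]
    linarith [D.loU f x, D.loV f x]
  have hiS : ∀ f x, x ⬝ᵥ (D.S f *ᵥ x) ≤ 2 * β * (x ⬝ᵥ x) := fun f x => by
    rw [Sys.S, add_mulVec, dotProduct_add]
    have h3 : D.b * (x ⬝ᵥ x) ≤ β * (x ⬝ᵥ x) :=
      mul_le_mul_of_nonneg_right (le_max_left _ _) (dp_nonneg x)
    linarith [D.hiU f x, D.hiV f x]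
  have posS : ∀ f, ∀ x ≠ 0, 0 < x ⬝ᵥ (D.S f *ᵥ x) := fun f x hx =>
    lt_of_lt_of_le (mul_pos (by linarith) (dp_pos hx)) (loS f x)
  have nnS : ∀ f x, 0 ≤ x ⬝ᵥ (D.S f *ᵥ x) := fun f x =>
    le_trans (mul_nonneg (by linarith) (dp_nonneg x)) (loS f x)
  have gS : ∀ f x, x ⬝ᵥ ((D.S f * D.S f) *ᵥ x) = (D.S f *ᵥ x) ⬝ᵥ (D.S f *ᵥ x) := fun f x => by
    have := quad_gram (D.S f) x
    rwa [sS] at this
  -- the constant
  set q : ℝ := max 1 (max ((5 / (4 * D.a)) * (1 / (2 * D.a))) ((8 * β) * (2 * β))) with hq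
  have hq1 : 1 ≤ q := le_max_left _ _
  refine ⟨q ^ m, 1 / D.a, by positivity, ?_⟩
  intro T hT f k hk
  have hT0 : 0 ≤ T := le_trans (by positivity) hT
  have hTa : 1 ≤ D.a * T := by
    have := mul_le_mul_of_nonneg_left hT ha.le
    rwa [mul_one_div_cancel ha.ne'] at this
  set St := D.S (D.Φ T f) with hSt
  set Yt := Y T f with hYt
  set Zt := Z T f with hZt
  set G : Mt m := Ytᵀ * St * Yt with hG
  set M : Mt m := (Yt - Zt)ᵀ * (Yt - Zt) with hM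
  have grow : ∀ x, x ⬝ᵥ x ≤ (Yt *ᵥ x) ⬝ᵥ (Yt *ᵥ x) ∧
      (Yt *ᵥ x) ⬝ᵥ (Yt *ᵥ x) ≤ Real.exp (2 * D.b * T) * (x ⬝ᵥ x) ∧
      4 * ((Zt *ᵥ x) ⬝ᵥ (Zt *ᵥ x)) ≤ (Yt *ᵥ x) ⬝ᵥ (Yt *ᵥ x) := by
    intro x
    obtain ⟨g1, g2, g3⟩ := h2 m X D Y Z hY hZ T hT0 f x
    have e1 : (1 : ℝ) ≤ Real.exp (2 * D.a * T) := Real.one_le_exp (by positivity)
    have e2 : Real.exp (-(2 * D.a * T)) * Real.exp (2 * D.a * T) = 1 := by
      rw [← Real.exp_add]; simp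
    have e3 : (2 : ℝ) ≤ Real.exp (2 * D.a * T) := by
      have := Real.add_one_le_exp (2 * D.a * T)
      linarith
    have e4 := Real.exp_pos (-(2 * D.a * T))
    have x0 := dp_nonneg x
    refine ⟨by nlinarith, g2, ?_⟩
    have e5 : Real.exp (-(2 * D.a * T)) * 2 ≤ 1 := by
      rw [← e2]; exact mul_le_mul_of_nonneg_left e3 e4.le
    have g4 : 4 * ((Zt *ᵥ x) ⬝ᵥ (Zt *ᵥ x)) ≤ 4 * (Real.exp (-(2 * D.a * T)) * (x ⬝ᵥ x)) := by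
      linarith
    have g5 : 4 * (Real.exp (-(2 * D.a * T)) * (x ⬝ᵥ x)) ≤ 2 * (x ⬝ᵥ x) := by nlinarith
    have g6 : 2 * (x ⬝ᵥ x) ≤ Real.exp (2 * D.a * T) * (x ⬝ᵥ x) :=
      mul_le_mul_of_nonneg_right e3 x0
    linarith
  have Gx : ∀ x, x ⬝ᵥ (G *ᵥ x) = (Yt *ᵥ x) ⬝ᵥ (St *ᵥ (Yt *ᵥ x)) := fun x => quad_conj Yt St x
  have Mx : ∀ x, x ⬝ᵥ (M *ᵥ x) = (Yt *ᵥ x - Zt *ᵥ x) ⬝ᵥ (Yt *ᵥ x - Zt *ᵥ x) := fun x => by
    rw [hM, quad_gram, sub_mulVec]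
  have GsY : ∀ x, 2 * D.a * ((Yt *ᵥ x) ⬝ᵥ (Yt *ᵥ x)) ≤ x ⬝ᵥ (G *ᵥ x) := fun x => by
    rw [Gx]; exact loS _ _
  have YsG : ∀ x, x ⬝ᵥ (G *ᵥ x) ≤ 2 * β * ((Yt *ᵥ x) ⬝ᵥ (Yt *ᵥ x)) := fun x => by
    rw [Gx]; exact hiS _ _
  have MY : ∀ x, x ⬝ᵥ (M *ᵥ x) ≤ 5 / 2 * ((Yt *ᵥ x) ⬝ᵥ (Yt *ᵥ x)) := fun x => by
    rw [Mx]
    linarith [dp_add_le (Yt *ᵥ x) (Zt *ᵥ x), (grow x).2.2]
  have YM : ∀ x, (Yt *ᵥ x) ⬝ᵥ (Yt *ᵥ x) ≤ 4 * (x ⬝ᵥ (M *ᵥ x)) := fun x => by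
    rw [Mx]
    linarith [dp_le_add (Yt *ᵥ x) (Zt *ᵥ x), (grow x).2.2]
  have Ypos : ∀ x ≠ 0, 0 < (Yt *ᵥ x) ⬝ᵥ (Yt *ᵥ x) := fun x hx =>
    lt_of_lt_of_le (dp_pos hx) (grow x).1
  have posG : ∀ x ≠ 0, 0 < x ⬝ᵥ (G *ᵥ x) := fun x hx =>
    lt_of_lt_of_le (mul_pos (by linarith) (Ypos x hx)) (GsY x)
  have posM : ∀ x ≠ 0, 0 < x ⬝ᵥ (M *ᵥ x) := fun x hx => by
    have := Ypos x hx
    have := YM x
    linarith
  have sG : Gᵀ = G := conj_symm Yt (sS _)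
  have sM : Mᵀ = M := by rw [hM, transpose_mul, transpose_transpose]
  have sSS : (D.S f * D.S f)ᵀ = D.S f * D.S f := by rw [transpose_mul, sS]
  have posSS : ∀ x ≠ 0, 0 < x ⬝ᵥ ((D.S f * D.S f) *ᵥ x) := fun x hx => by
    rw [gS]
    have h3 := le_sq (m := m) (by linarith : 0 < 2 * D.a) (loS f) x
    have h4 := mul_pos (by linarith : 0 < 2 * D.a) (posS f x hx)
    linarith
  have nnM : ∀ x, 0 ≤ x ⬝ᵥ (M *ᵥ x) := fun x => by rw [Mx]; exact dp_nonneg _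
  have nnG : ∀ x, 0 ≤ x ⬝ᵥ (G *ᵥ x) := fun x => by rw [Gx]; exact nnS _ _
  -- comparisons
  have c1 : ∀ x, x ⬝ᵥ (M *ᵥ x) ≤ 5 / (4 * D.a) * (x ⬝ᵥ (G *ᵥ x)) := fun x => by
    have h3 : 5 / (4 * D.a) * (2 * D.a * ((Yt *ᵥ x) ⬝ᵥ (Yt *ᵥ x)))
        = 5 / 2 * ((Yt *ᵥ x) ⬝ᵥ (Yt *ᵥ x)) := by field_simp; ring
    have h4 := mul_le_mul_of_nonneg_left (GsY x) (by positivity : 0 ≤ 5 / (4 * D.a))
    rw [h3] at h4
    exact (MY x).trans h4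
  have c2 : ∀ x, x ⬝ᵥ (D.S f *ᵥ x) ≤ 1 / (2 * D.a) * (x ⬝ᵥ ((D.S f * D.S f) *ᵥ x)) := fun x => by
    rw [gS]
    have h3 := le_sq (m := m) (by linarith : 0 < 2 * D.a) (loS f) x
    have h4 := mul_le_mul_of_nonneg_left h3 (by positivity : 0 ≤ 1 / (2 * D.a))
    have h5 : 1 / (2 * D.a) * (2 * D.a * (x ⬝ᵥ (D.S f *ᵥ x))) = x ⬝ᵥ (D.S f *ᵥ x) := by
      field_simp
    rwa [h5] at h4
  have c3 : ∀ x, x ⬝ᵥ (G *ᵥ x) ≤ 8 * β * (x ⬝ᵥ (M *ᵥ x)) := fun x => by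
    have h3 := mul_le_mul_of_nonneg_left (YM x) (by positivity : 0 ≤ 2 * β)
    linarith [YsG x]
  have c4 : ∀ x, x ⬝ᵥ ((D.S f * D.S f) *ᵥ x) ≤ 2 * β * (x ⬝ᵥ (D.S f *ᵥ x)) := fun x => by
    rw [gS]
    exact sq_le (sS f) (by positivity) (nnS f) (hiS f) x
  have hE := Real.exp_pos (2 * D.b * T)
  have xS : ∀ x, x ⬝ᵥ x ≤ 1 / (2 * D.a) * (x ⬝ᵥ (D.S f *ᵥ x)) := fun x => by
    have h4 := mul_le_mul_of_nonneg_left (loS f x) (by positivity : 0 ≤ 1 / (2 * D.a))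
    have h5 : 1 / (2 * D.a) * (2 * D.a * (x ⬝ᵥ x)) = x ⬝ᵥ x := by field_simp
    rwa [h5] at h4
  have b1 : ∀ x, x ⬝ᵥ (G *ᵥ x) ≤
      2 * β * (Real.exp (2 * D.b * T) * (1 / (2 * D.a))) * (x ⬝ᵥ (D.S f *ᵥ x)) := fun x => by
    calc x ⬝ᵥ (G *ᵥ x) ≤ 2 * β * ((Yt *ᵥ x) ⬝ᵥ (Yt *ᵥ x)) := YsG x
      _ ≤ 2 * β * (Real.exp (2 * D.b * T) * (x ⬝ᵥ x)) :=
          mul_le_mul_of_nonneg_left (grow x).2.1 (by positivity)
      _ ≤ 2 * β * (Real.exp (2 * D.b * T) * (1 / (2 * D.a) * (x ⬝ᵥ (D.S f *ᵥ x)))) := by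
          have := xS x
          gcongr
      _ = _ := by ring
  have b2 : ∀ x, x ⬝ᵥ (M *ᵥ x) ≤
      5 / 2 * (Real.exp (2 * D.b * T) * (1 / (2 * D.a) * (1 / (2 * D.a)))) *
        (x ⬝ᵥ ((D.S f * D.S f) *ᵥ x)) := fun x => by
    calc x ⬝ᵥ (M *ᵥ x) ≤ 5 / 2 * ((Yt *ᵥ x) ⬝ᵥ (Yt *ᵥ x)) := MY x
      _ ≤ 5 / 2 * (Real.exp (2 * D.b * T) * (x ⬝ᵥ x)) :=
          mul_le_mul_of_nonneg_left (grow x).2.1 (by positivity)
      _ ≤ 5 / 2 * (Real.exp (2 * D.b * T) * (1 / (2 * D.a) *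
            (1 / (2 * D.a) * (x ⬝ᵥ ((D.S f * D.S f) *ᵥ x))))) := by
          have h3 := xS x
          have h4 := c2 x
          have h5 : x ⬝ᵥ x ≤ 1 / (2 * D.a) * (1 / (2 * D.a) *
              (x ⬝ᵥ ((D.S f * D.S f) *ᵥ x))) :=
            h3.trans (mul_le_mul_of_nonneg_left h4 (by positivity))
          gcongr
      _ = _ := by ring
  -- the two suprema
  have hN : D.N Y k T f = sSup (vals k (D.S f) G) := rfl
  have hSdet : IsUnit (D.S f).det :=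
    (pd_det_pos _ (sS f) (posS f)).ne'.isUnit
  have hA : topV k ((D.A Y Z T f)ᵀ * D.A Y Z T f) = sSup (vals k (D.S f * D.S f) M) := by
    unfold topV vals
    congr 1
    ext x
    have eA : D.A Y Z T f = (Yt - Zt) * (D.S f)⁻¹ := rfl
    have sI : ((D.S f)⁻¹)ᵀ = (D.S f)⁻¹ := by rw [transpose_nonsing_inv, sS]
    constructor
    · rintro ⟨W, hW, rfl⟩
      refine ⟨(D.S f)⁻¹ * W, ?_, ?_⟩
      · rw [transpose_mul, sI]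
        have : Wᵀ * (D.S f)⁻¹ * (D.S f * D.S f) * ((D.S f)⁻¹ * W)
            = Wᵀ * ((D.S f)⁻¹ * D.S f) * (D.S f * (D.S f)⁻¹) * W := by
          simp only [Matrix.mul_assoc]
        rw [this, nonsing_inv_mul _ hSdet, mul_nonsing_inv _ hSdet, Matrix.mul_one,
          Matrix.mul_one, hW]
      · rw [eA, hM]
        congr 1
        simp only [transpose_mul, Matrix.mul_assoc]
    · rintro ⟨W, hW, rfl⟩
      refine ⟨D.S f * W, ?_, ?_⟩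
      · rw [transpose_mul, sS, ← hW]
        simp only [Matrix.mul_assoc]
      · rw [eA, hM]
        congr 1
        have e6 : (Yt - Zt) * (D.S f)⁻¹ * (D.S f * W) = (Yt - Zt) * W := by
          rw [Matrix.mul_assoc, ← Matrix.mul_assoc (D.S f)⁻¹, nonsing_inv_mul _ hSdet,
            Matrix.one_mul]
        have e7 : (D.S f * W)ᵀ * (((Yt - Zt) * (D.S f)⁻¹)ᵀ * ((Yt - Zt) * (D.S f)⁻¹)) *
            (D.S f * W) = ((Yt - Zt) * (D.S f)⁻¹ * (D.S f * W))ᵀ *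
              ((Yt - Zt) * (D.S f)⁻¹ * (D.S f * W)) := by
          simp only [transpose_mul, Matrix.mul_assoc]
        rw [e7, e6]
        simp only [transpose_mul, Matrix.mul_assoc]
  rw [hA, hN]
  have p1 : 0 < sSup (vals k (D.S f) G) :=
    sup_pos hk (sS f) (posS f) sG posG (by positivity) b1
  have p2 : 0 < sSup (vals k (D.S f * D.S f) M) :=
    sup_pos hk sSS posSS sM posM (by positivity) b2
  have u1 : sSup (vals k (D.S f * D.S f) M)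
      ≤ ((5 / (4 * D.a)) * (1 / (2 * D.a))) ^ k * sSup (vals k (D.S f) G) :=
    sup_le hk (sS f) sSS (posS f) posSS sG sM posG nnM (by positivity) (by positivity)
      (by positivity) c2 c1 b1
  have u2 : sSup (vals k (D.S f) G) ≤ ((8 * β) * (2 * β)) ^ k *
      sSup (vals k (D.S f * D.S f) M) :=
    sup_le hk sSS (sS f) posSS (posS f) sM sG posM nnG (by positivity) (by positivity)
      (by positivity) c4 c3 b2
  have hpow : ∀ c : ℝ, 0 ≤ c → c ≤ q → c ^ k ≤ q ^ m := fun c hc hcq =>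
    (pow_le_pow_left₀ hc hcq k).trans (pow_le_pow_right₀ hq1 hk)
  have v1 := hpow ((5 / (4 * D.a)) * (1 / (2 * D.a))) (by positivity)
    ((le_max_left _ _).trans (le_max_right _ _))
  have v2 := hpow ((8 * β) * (2 * β)) (by positivity)
    ((le_max_right _ _).trans (le_max_right _ _))
  have hQ : 0 < q ^ m := by positivity
  refine ⟨p1, ?_, ?_⟩
  · rw [inv_mul_le_iff₀ hQ]
    exact u2.trans (mul_le_mul_of_nonneg_right v2 p2.le)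
  · exact u1.trans (mul_le_mul_of_nonneg_right v1 p1.le)

end Vale.Agent.P207.SPH.H761
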