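import Mathlib

/-!
P207, project SPH, row R1: the Dyson series of a linear equation along a flow.
-/

open MeasureTheory Set Filter Topology intervalIntegral

noncomputable section

namespace Vale.Agent.P207.SPH.H761

variable {A : Type*} [NormedRing A] [NormedAlgebra ℝ A] [CompleteSpace A]
  {X : Type*} [TopologicalSpace X]

/-- terms of the Dyson series -/
def dy (c : ℝ × X → A) : ℕ → ℝ × X → A
  | 0 => fun _ => 1
  | n + 1 => fun q => ∫ s in (0 : ℝ)..q.1, c (s, q.2) * dy c n (s, q.2)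

omit [CompleteSpace A] in
theorem dy_cont {c : ℝ × X → A} (hc : Continuous c) (n : ℕ) : Continuous (dy c n) := by
  induction n with
  | zero => exact continuous_const
  | succ n ih =>
    have h1 : Continuous (Function.uncurry fun (q : ℝ × X) (s : ℝ) =>
        c (s, q.2) * dy c n (s, q.2)) := by
      have e : Continuous fun p : (ℝ × X) × ℝ => (p.2, p.1.2) := by fun_prop
      exact (hc.comp e).mul (ih.comp e)
    exact continuous_parametric_intervalIntegral_of_continuous h1 continuous_fst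

omit [CompleteSpace A] in
theorem dy_bound {c : ℝ × X → A} (hc : Continuous c) {L : ℝ} (hL0 : 0 ≤ L)
    (hL : ∀ q, ‖c q‖ ≤ L) (n : ℕ) (q : ℝ × X) :
    ‖dy c n q‖ ≤ ‖(1 : A)‖ * ((L * |q.1|) ^ n / n.factorial) := by
  induction n generalizing q with
  | zero => simp [dy]
  | succ n ih =>
    have hcont : Continuous fun s : ℝ => c (s, q.2) * dy c n (s, q.2) := by
      have e : Continuous fun s : ℝ => (s, q.2) := by fun_prop
      exact (hc.comp e).mul ((dy_cont hc n).comp e)
    have hcont2 : Continuous fun s : ℝ =>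
        L * (‖(1 : A)‖ * ((L * |s|) ^ n / n.factorial)) := by fun_prop
    calc ‖dy c (n + 1) q‖ = ‖∫ s in (0 : ℝ)..q.1, c (s, q.2) * dy c n (s, q.2)‖ := rfl
      _ ≤ ∫ s in uIoc (0 : ℝ) q.1, ‖c (s, q.2) * dy c n (s, q.2)‖ :=
          norm_integral_le_integral_norm_uIoc
      _ ≤ ∫ s in uIoc (0 : ℝ) q.1, L * (‖(1 : A)‖ * ((L * |s|) ^ n / n.factorial)) := by
          apply setIntegral_mono
          · exact (hcont.norm.integrableOn_uIoc)
          · exact (hcont2.integrableOn_uIoc)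
          · intro s
            calc ‖c (s, q.2) * dy c n (s, q.2)‖ ≤ ‖c (s, q.2)‖ * ‖dy c n (s, q.2)‖ :=
                  norm_mul_le _ _
              _ ≤ L * (‖(1 : A)‖ * ((L * |s|) ^ n / n.factorial)) :=
                  mul_le_mul (hL _) (ih (s, q.2)) (norm_nonneg _) hL0
      _ = ∫ s in uIoc (0 : ℝ) q.1,
            (L * ‖(1 : A)‖ * L ^ n / n.factorial) * |s - 0| ^ n := by
          refine integral_congr_ae (Eventually.of_forall fun s => ?_)
          simp only [sub_zero, mul_pow]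
          ring
      _ = (L * ‖(1 : A)‖ * L ^ n / n.factorial) * (|q.1 - 0| ^ (n + 1) / (n + 1)) := by
          rw [MeasureTheory.integral_const_mul, integral_pow_abs_sub_uIoc]
      _ = ‖(1 : A)‖ * ((L * |q.1|) ^ (n + 1) / (n + 1).factorial) := by
          rw [Nat.factorial_succ, sub_zero]
          push_cast
          have : (n.factorial : ℝ) ≠ 0 := by positivity
          have : (n : ℝ) + 1 ≠ 0 := by positivity
          field_simp
          ring

/-- the sum of the Dyson series -/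
def YY (c : ℝ × X → A) (q : ℝ × X) : A := ∑' n, dy c n q

theorem summ (K L T : ℝ) : Summable fun n : ℕ => K * ((L * T) ^ n / n.factorial) :=
  (Real.summable_pow_div_factorial (L * T)).mul_left K

omit [CompleteSpace A] in
theorem dy_bound' {c : ℝ × X → A} (hc : Continuous c) {L : ℝ} (hL0 : 0 ≤ L)
    (hL : ∀ q, ‖c q‖ ≤ L) (n : ℕ) {T : ℝ} (q : ℝ × X) (hq : |q.1| ≤ T) :
    ‖dy c n q‖ ≤ ‖(1 : A)‖ * ((L * T) ^ n / n.factorial) := by
  refine (dy_bound hc hL0 hL n q).trans ?_
  gcongr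

theorem dy_summable {c : ℝ × X → A} (hc : Continuous c) {L : ℝ} (hL0 : 0 ≤ L)
    (hL : ∀ q, ‖c q‖ ≤ L) (q : ℝ × X) : Summable fun n => dy c n q :=
  Summable.of_norm_bounded (summ ‖(1 : A)‖ L |q.1|)
    fun n => dy_bound' hc hL0 hL n q le_rfl

theorem YY_cont {c : ℝ × X → A} (hc : Continuous c) {L : ℝ} (hL0 : 0 ≤ L)
    (hL : ∀ q, ‖c q‖ ≤ L) : Continuous (YY c) := by
  rw [continuous_iff_continuousAt]
  intro q
  have hopen : IsOpen {p : ℝ × X | |p.1| < |q.1| + 1} :=
    isOpen_lt (continuous_fst.abs) continuous_const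
  have h1 : ContinuousOn (YY c) {p : ℝ × X | |p.1| < |q.1| + 1} :=
    continuousOn_tsum (fun n => (dy_cont hc n).continuousOn)
      (summ ‖(1 : A)‖ L (|q.1| + 1))
      (fun n p hp => dy_bound' hc hL0 hL n p (le_of_lt hp))
  exact h1.continuousAt (hopen.mem_nhds (by simp))

theorem YY_eq {c : ℝ × X → A} (hc : Continuous c) {L : ℝ} (hL0 : 0 ≤ L)
    (hL : ∀ q, ‖c q‖ ≤ L) (t : ℝ) (f : X) :
    YY c (t, f) = 1 + ∫ s in (0 : ℝ)..t, c (s, f) * YY c (s, f) := by
  have hs := dy_summable hc hL0 hL (t, f)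
  have h1 : YY c (t, f) = dy c 0 (t, f) + ∑' n, dy c (n + 1) (t, f) := hs.tsum_eq_zero_add
  rw [h1]
  congr 1
  have h2 : HasSum (fun n => ∫ s in (0 : ℝ)..t, c (s, f) * dy c n (s, f))
      (∫ s in (0 : ℝ)..t, c (s, f) * YY c (s, f)) := by
    refine hasSum_integral_of_dominated_convergence
      (fun n _ => L * (‖(1 : A)‖ * ((L * |t|) ^ n / n.factorial))) ?_ ?_ ?_ ?_ ?_
    · intro n
      have e : Continuous fun s : ℝ => (s, f) := by fun_prop
      exact ((hc.comp e).mul ((dy_cont hc n).comp e)).aestronglyMeasurable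
    · intro n
      refine Eventually.of_forall fun s hs => ?_
      have hst : |s| ≤ |t| := by
        rcases le_total 0 t with h | h
        · rw [uIoc_of_le h] at hs
          rw [abs_of_nonneg h, abs_of_nonneg hs.1.le]; exact hs.2
        · rw [uIoc_of_ge h] at hs
          rw [abs_of_nonpos h, abs_of_nonpos hs.2]; linarith [hs.1]
      calc ‖c (s, f) * dy c n (s, f)‖ ≤ ‖c (s, f)‖ * ‖dy c n (s, f)‖ := norm_mul_le _ _
        _ ≤ L * (‖(1 : A)‖ * ((L * |t|) ^ n / n.factorial)) :=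
            mul_le_mul (hL _) (dy_bound' hc hL0 hL n (s, f) hst) (norm_nonneg _) hL0
    · exact Eventually.of_forall fun s _ => (summ ‖(1 : A)‖ L |t|).mul_left L
    · exact intervalIntegrable_const
    · refine Eventually.of_forall fun s _ => ?_
      exact (dy_summable hc hL0 hL (s, f)).hasSum.mul_left (c (s, f))
  exact h2.tsum_eq

theorem YY_zero {c : ℝ × X → A} (hc : Continuous c) {L : ℝ} (hL0 : 0 ≤ L)
    (hL : ∀ q, ‖c q‖ ≤ L) (f : X) : YY c (0, f) = 1 := by
  rw [YY_eq hc hL0 hL, integral_same, add_zero]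

theorem YY_deriv {c : ℝ × X → A} (hc : Continuous c) {L : ℝ} (hL0 : 0 ≤ L)
    (hL : ∀ q, ‖c q‖ ≤ L) (t : ℝ) (f : X) :
    HasDerivAt (fun s => YY c (s, f)) (c (t, f) * YY c (t, f)) t := by
  have e : Continuous fun s : ℝ => (s, f) := by fun_prop
  have hg : Continuous fun s : ℝ => c (s, f) * YY c (s, f) :=
    (hc.comp e).mul ((YY_cont hc hL0 hL).comp e)
  have h1 : HasDerivAt (fun u => ∫ s in (0 : ℝ)..u, c (s, f) * YY c (s, f))
      (c (t, f) * YY c (t, f)) t :=
    integral_hasDerivAt_right (hg.intervalIntegrable _ _)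
      hg.aestronglyMeasurable.stronglyMeasurableAtFilter hg.continuousAt
  have h2 : (fun s => YY c (s, f)) = fun u => 1 + ∫ s in (0 : ℝ)..u, c (s, f) * YY c (s, f) := by
    funext u; exact YY_eq hc hL0 hL u f
  rw [h2]
  exact h1.const_add 1

omit [CompleteSpace A] in
/-- uniqueness -/
theorem lin_unique {a : ℝ → A} {L : ℝ} (hL : ∀ t, ‖a t‖ ≤ L) {y z : ℝ → A}
    (hy : ∀ t, HasDerivAt y (a t * y t) t) (hz : ∀ t, HasDerivAt z (a t * z t) t)
    (h0 : y 0 = z 0) : y = z := by
  have hL0 : 0 ≤ L := (norm_nonneg _).trans (hL 0)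
  refine ODE_solution_unique_univ (v := fun t x => a t * x) (s := fun _ => univ)
    (K := ⟨L, hL0⟩) (t₀ := 0) (fun t => ?_) (fun t => ⟨hy t, mem_univ _⟩)
    (fun t => ⟨hz t, mem_univ _⟩) h0
  refine LipschitzWith.lipschitzOnWith (LipschitzWith.of_dist_le_mul fun x x' => ?_)
  rw [dist_eq_norm, dist_eq_norm, ← mul_sub]
  exact (norm_mul_le _ _).trans (mul_le_mul_of_nonneg_right (hL t) (norm_nonneg _))

/-- cocycle identity -/
theorem YY_coc {b : X → A} {Φ : ℝ → X → X} (hΦ : ∀ s t f, Φ s (Φ t f) = Φ (s + t) f)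
    {L : ℝ} (hc : Continuous fun q : ℝ × X => b (Φ q.1 q.2)) (hL0 : 0 ≤ L)
    (hL : ∀ q : ℝ × X, ‖b (Φ q.1 q.2)‖ ≤ L) (s t : ℝ) (f : X) :
    YY (fun q : ℝ × X => b (Φ q.1 q.2)) (s + t, f)
      = YY (fun q : ℝ × X => b (Φ q.1 q.2)) (s, Φ t f)
        * YY (fun q : ℝ × X => b (Φ q.1 q.2)) (t, f) := by
  set c : ℝ × X → A := fun q : ℝ × X => b (Φ q.1 q.2) with hcdef
  have hy : ∀ u, HasDerivAt (fun s => YY c (s + t, f)) (c (u + t, f) * YY c (u + t, f)) u :=
    fun u => (YY_deriv hc hL0 hL (u + t) f).comp_add_const u t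
  have hz : ∀ u, HasDerivAt (fun s => YY c (s, Φ t f) * YY c (t, f))
      (c (u + t, f) * (YY c (u, Φ t f) * YY c (t, f))) u := by
    intro u
    have h1 := (YY_deriv hc hL0 hL u (Φ t f)).mul_const (YY c (t, f))
    have h2 : c (u, Φ t f) = c (u + t, f) := by
      simp only [hcdef, hΦ]
    rw [h2, mul_assoc] at h1
    exact h1
  have := lin_unique (a := fun u => c (u + t, f)) (fun u => hL (u + t, f)) hy hz
    (by simp only [zero_add]; rw [YY_zero hc hL0 hL, one_mul])
  exact congrFun this s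

end Vale.Agent.P207.SPH.H761
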