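import Vale.Agent.P207.SPH.Defs
import Vale.Agent.P207.SPH.H761.Dyson
import Vale.Agent.P207.H147.DetD

/-!
P207, project SPH, row R1: fundamental solutions.
-/

open Matrix MeasureTheory Set Filter Topology

noncomputable section

namespace Vale.Agent.P207.SPH.H761

/-- the algebra of operators -/
abbrev Op (m : ℕ) : Type := EuclideanSpace ℝ (Fin m) →L[ℝ] EuclideanSpace ℝ (Fin m)

/-- matrices as operators -/
def J (m : ℕ) : Mt m ≃⋆ₐ[ℝ] Op m := Matrix.toEuclideanCLM (n := Fin m) (𝕜 := ℝ)

/-- an entry as a continuous functional -/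
def ent (m : ℕ) (i j : Fin m) : Op m →L[ℝ] ℝ :=
  LinearMap.toContinuousLinearMap
    { toFun := fun T => (J m).symm T i j
      map_add' := fun S T => by rw [map_add]; rfl
      map_smul' := fun r T => by rw [map_smul]; rfl }

theorem ent_apply (m : ℕ) (i j : Fin m) (T : Op m) : ent m i j T = (J m).symm T i j := rfl

theorem J_cont (m : ℕ) : Continuous (J m) := by
  have h : Continuous (((J m : Mt m ≃⋆ₐ[ℝ] Op m).toAlgEquiv.toLinearMap : Mt m →ₗ[ℝ] Op m)) := by
    exact LinearMap.continuous_of_finiteDimensional _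
  exact h

theorem exists_bound {X : Type} [TopologicalSpace X] [CompactSpace X] {E : Type*}
    [NormedAddCommGroup E] {b : X → E} (hb : Continuous b) : ∃ L, 0 ≤ L ∧ ∀ f, ‖b f‖ ≤ L := by
  obtain ⟨L0, hL0⟩ := (isCompact_range hb.norm).bddAbove
  exact ⟨max L0 0, le_max_right _ _, fun f => (hL0 (mem_range_self f)).trans (le_max_left _ _)⟩

/-- **R1.** -/
theorem fund : FundStmt := by
  intro m X _ _ D B hB
  set b : X → Op m := fun f => J m (B f) with hb
  have hbc : Continuous b := (J_cont m).comp hB
  have hc : Continuous fun q : ℝ × X => b (D.Φ q.1 q.2) := hbc.comp D.cont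
  obtain ⟨L, hL0, hL⟩ := exists_bound hbc
  have hL' : ∀ q : ℝ × X, ‖b (D.Φ q.1 q.2)‖ ≤ L := fun q => hL _
  set c : ℝ × X → Op m := fun q => b (D.Φ q.1 q.2) with hcd
  refine ⟨fun t f => (J m).symm (YY c (t, f)), ?_, ?_, ?_, ?_, ?_⟩
  · intro f
    show (J m).symm (YY c (0, f)) = 1
    rw [YY_zero hc hL0 hL', map_one]
  · intro f t i j
    have h1 := (ent m i j).hasFDerivAt.comp_hasDerivAt t (YY_deriv hc hL0 hL' t f)
    have h2 : ent m i j (c (t, f) * YY c (t, f))
        = (B (D.Φ t f) * (J m).symm (YY c (t, f))) i j := by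
      rw [ent_apply, map_mul]
      have : (J m).symm (c (t, f)) = B (D.Φ t f) := (J m).symm_apply_apply _
      rw [this]
    exact h1.congr_deriv h2
  · exact continuous_matrix fun i j => (ent m i j).continuous.comp (YY_cont hc hL0 hL')
  · intro f s t
    show (J m).symm (YY c (s + t, f)) = (J m).symm (YY c (s, D.Φ t f)) * (J m).symm (YY c (t, f))
    rw [← map_mul, hcd, YY_coc (b := b) D.add hc hL0 hL' s t f]
  · intro f t
    have hder : ∀ t, HasDerivAt (fun s => ((J m).symm (YY c (s, f))).det)
        ((B (D.Φ t f)).trace * ((J m).symm (YY c (t, f))).det) t := by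
      intro t
      have h0 : ∀ i j, HasDerivAt (fun s => (J m).symm (YY c (s, f)) i j)
          ((B (D.Φ t f) * (J m).symm (YY c (t, f))) i j) t := by
        intro i j
        have h1 := (ent m i j).hasFDerivAt.comp_hasDerivAt t (YY_deriv hc hL0 hL' t f)
        have h2 : ent m i j (c (t, f) * YY c (t, f))
            = (B (D.Φ t f) * (J m).symm (YY c (t, f))) i j := by
          rw [ent_apply, map_mul]
          have : (J m).symm (c (t, f)) = B (D.Φ t f) := (J m).symm_apply_apply _
          rw [this]
        exact h1.congr_deriv h2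
      have h3 := Vale.Agent.P207.H147.DetD.hasDerivAt_matDet h0
      refine h3.congr_deriv ?_
      rw [← Matrix.mul_assoc, trace_mul_comm, ← Matrix.mul_assoc, Matrix.mul_adjugate,
        Matrix.smul_mul, Matrix.one_mul, trace_smul, smul_eq_mul, mul_comm]
    have htr : Continuous fun g : X => (B g).trace := hB.matrix_trace
    have hflow : Continuous fun s : ℝ => D.Φ s f :=
      D.cont.comp (by fun_prop : Continuous fun s : ℝ => (s, f))
    have htrf : Continuous fun s : ℝ => (B (D.Φ s f)).trace := htr.comp hflow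
    obtain ⟨M, hM0, hM⟩ := exists_bound htr
    have hexp : ∀ t, HasDerivAt (fun u => Real.exp (∫ s in (0 : ℝ)..u, (B (D.Φ s f)).trace))
        ((B (D.Φ t f)).trace * Real.exp (∫ s in (0 : ℝ)..t, (B (D.Φ s f)).trace)) t := by
      intro t
      have h1 : HasDerivAt (fun u => ∫ s in (0 : ℝ)..u, (B (D.Φ s f)).trace)
          ((B (D.Φ t f)).trace) t :=
        intervalIntegral.integral_hasDerivAt_right (htrf.intervalIntegrable _ _)
          htrf.aestronglyMeasurable.stronglyMeasurableAtFilter htrf.continuousAt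
      refine h1.exp.congr_deriv ?_
      ring
    have h4 := lin_unique (a := fun t => (B (D.Φ t f)).trace) (fun t => hM _) hder hexp
      (by rw [YY_zero hc hL0 hL', map_one, det_one]; simp)
    exact congrFun h4 t

end Vale.Agent.P207.SPH.H761
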