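import Vale.Agent.P207.Q.H129.Par
import Vale.Agent.P207.BlkD1
import Vale.Agent.P207.BlkK1

/-!
P207, project SPH, row G5: uniqueness of Jacobi fields, for a geodesic in the letters of the base.
-/

open scoped Manifold ContDiff Topology
open Bundle MeasureTheory Set Filter

set_option maxSynthPendingDepth 3

noncomputable section

namespace Vale.Agent.P207.SPH.H761

open Vale.Agent.P255 (RMetric coefIn Gam Riem IsGeo IsJac CovDer fieldIn curveIn innerAt Metric
  trans chrisB cc covD curv IsGeodesic IsJacobi)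
open Vale.Agent.P207 Vale.Agent.P207.Q

variable {n : ℕ} [NeZero n] {M : Type} [TopologicalSpace M] [ChartedSpace (EV n) M]
  [IsManifold 𝓘(ℝ, EV n) ∞ M] {g : RMetric (EV n) M}

omit [NeZero n] in
theorem fieldIn_eq {γ : ℝ → M} (J : ∀ t, TangentSpace 𝓘(ℝ, EV n) (γ t)) (a : M) {t : ℝ}
    (ha : γ t ∈ (chartAt (EV n) a).source) :
    fieldIn γ J a t = fderiv ℝ (trans (EV n) (γ t) a) (chartAt (EV n) (γ t) (γ t))
      (J t : EV n) := by
  have h1 := mfderiv_chart_eq (n := n) a ha
  exact congrArg (fun L : EV n →L[ℝ] EV n => L (J t : EV n)) h1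

omit [NeZero n] in
theorem cov_eq (γ : ℝ → M) (a : M) (Y : ℝ → EV n) {t : ℝ}
    (ha : γ t ∈ (chartAt (EV n) a).source) :
    CovDer (coefIn g a) (curveIn (E := EV n) γ a) Y t = covD ((mt g).coef a) (cc γ a) Y t := by
  unfold CovDer covD
  rw [← P255.chrisB_apply]
  congr 1
  exact D1.gam_mt g a ((chartAt (EV n) a).map_source ha) _ _

theorem isJacobi_of {γ : ℝ → M} (h : IsGeodesic (mt g) γ)
    {J : ∀ t, TangentSpace 𝓘(ℝ, EV n) (γ t)} (hJ : IsJac g γ J) :
    IsJacobi (mt g) γ (fun a t => fieldIn γ J a t) := by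
  refine ⟨?_, ?_⟩
  · intro a b t ha hb
    rw [fieldIn_eq J a ha, fieldIn_eq J b hb]
    have hx : (chartAt (EV n) (γ t)).symm (chartAt (EV n) (γ t) (γ t)) = γ t :=
      (chartAt (EV n) (γ t)).left_inv (mem_chart_source _ _)
    have h1 := P255.fderiv_trans_comp (E := EV n) (γ t) a b
      (u := chartAt (EV n) (γ t) (γ t)) (mem_chart_target (EV n) (γ t))
      (by rw [hx]; exact ha) (by rw [hx]; exact hb) (J t : EV n)
    have h2 : trans (EV n) (γ t) a (chartAt (EV n) (γ t) (γ t)) = cc γ a t := by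
      show chartAt (EV n) a ((chartAt (EV n) (γ t)).symm (chartAt (EV n) (γ t) (γ t))) = _
      rw [hx]
      rfl
    rw [h2] at h1
    exact h1.symm
  · intro a t ha
    obtain ⟨h1, h2, h3⟩ := hJ a t ha
    have hsrc := P255.eventually_mem_source h.continuous.continuousAt ha
    have e1 : CovDer (coefIn g a) (curveIn (E := EV n) γ a) (fieldIn γ J a) =ᶠ[𝓝 t]
        covD ((mt g).coef a) (cc γ a) (fieldIn γ J a) := by
      filter_upwards [hsrc] with s hs using cov_eq γ a _ hs
    refine ⟨h1, h2.congr_of_eventuallyEq e1.symm, ?_⟩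
    have e2 : CovDer (coefIn g a) (curveIn (E := EV n) γ a)
        (CovDer (coefIn g a) (curveIn (E := EV n) γ a) (fieldIn γ J a)) t =
        covD ((mt g).coef a) (cc γ a) (covD ((mt g).coef a) (cc γ a) (fieldIn γ J a)) t := by
      rw [cov_eq γ a _ ha]
      unfold covD
      rw [Filter.EventuallyEq.deriv_eq e1, e1.self_of_nhds]
      rfl
    have e3 := D1.riem_mt g a ((chartAt (EV n) a).map_source ha) (fieldIn γ J a t)
      (deriv (curveIn (E := EV n) γ a) t) (deriv (curveIn (E := EV n) γ a) t)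
    have e4 := D1.curvT_apply ((mt g).isMetricOn a) ((chartAt (EV n) a).map_source ha)
      (fieldIn γ J a t) (deriv (curveIn (E := EV n) γ a) t) (deriv (curveIn (E := EV n) γ a) t)
    rw [e2] at h3
    have e5 : Riem (coefIn g a) (curveIn (E := EV n) γ a t) (fieldIn γ J a t)
        (deriv (curveIn (E := EV n) γ a) t) (deriv (curveIn (E := EV n) γ a) t) =
        curv ((mt g).coef a) (cc γ a t) (fieldIn γ J a t) (deriv (cc γ a) t)
          (deriv (cc γ a) t) := e3.trans e4
    rw [e5] at h3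
    exact h3

/-- **Uniqueness of Jacobi fields.** -/
theorem jac_unique {γ : ℝ → M} (h : IsGeodesic (mt g) γ)
    {J J' : ∀ t, TangentSpace 𝓘(ℝ, EV n) (γ t)} (hJ : IsJac g γ J) (hJ' : IsJac g γ J')
    (h0 : J 0 = 0) (h0' : J' 0 = 0)
    (hd : deriv (fieldIn γ J (γ 0)) 0 = deriv (fieldIn γ J' (γ 0)) 0) (t : ℝ) : J t = J' t := by
  have j1 := isJacobi_of h hJ
  have j2 := isJacobi_of h hJ'
  have j3 := isJacobi_sub h j1 j2
  have hs : γ 0 ∈ (chartAt (EV n) (γ 0)).source := mem_chart_source _ _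
  have z1 : fieldIn γ J (γ 0) 0 = 0 := by
    rw [fieldIn_eq J (γ 0) hs, h0]
    exact map_zero _
  have z2 : fieldIn γ J' (γ 0) 0 = 0 := by
    rw [fieldIn_eq J' (γ 0) hs, h0']
    exact map_zero _
  have k1 : DifferentiableAt ℝ (fieldIn γ J (γ 0)) 0 := (hJ (γ 0) 0 hs).1
  have k2 : DifferentiableAt ℝ (fieldIn γ J' (γ 0)) 0 := (hJ' (γ 0) 0 hs).1
  have hz := j3.zero_of_initial h (a := γ 0) (t₀ := 0) hs
    (by show fieldIn γ J (γ 0) 0 - fieldIn γ J' (γ 0) 0 = 0; rw [z1, z2, sub_zero])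
    (by
      simp only [covD, ← P255.chrisB_apply]
      rw [deriv_fun_sub k1 k2, hd, z1, z2, sub_self, sub_self, map_zero, add_zero])
  have ht : γ t ∈ (chartAt (EV n) (γ t)).source := mem_chart_source _ _
  have h1 := sub_eq_zero.1 (hz (γ t) t ht)
  have h2 : fieldIn γ J (γ t) t = fieldIn γ J' (γ t) t := h1
  have s1 : fderiv ℝ (trans (EV n) (γ t) (γ t)) (chartAt (EV n) (γ t) (γ t)) (J t : EV n)
      = (J t : EV n) := P255.fderiv_trans_self (γ t) (mem_chart_target (EV n) (γ t)) _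
  have s2 : fderiv ℝ (trans (EV n) (γ t) (γ t)) (chartAt (EV n) (γ t) (γ t)) (J' t : EV n)
      = (J' t : EV n) := P255.fderiv_trans_self (γ t) (mem_chart_target (EV n) (γ t)) _
  rw [fieldIn_eq J (γ t) ht, fieldIn_eq J' (γ t) ht] at h2
  exact s1.symm.trans (h2.trans s2)

end Vale.Agent.P207.SPH.H761
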