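import Vale.Agent.P207.SPH.Geo
import Vale.Agent.P207.SPH.H761.UniqA

/-!
P207, project SPH, row G5.
-/

open scoped Manifold ContDiff Topology
open Bundle MeasureTheory Set Filter

set_option maxSynthPendingDepth 3

noncomputable section

namespace Vale.Agent.P207.SPH.H761

open Vale.Agent.P207 Vale.Agent.P207.Q Vale.Agent.P207.Q.H130

/-- **G5.** -/
theorem uniq : UniqGeoStmt := by
  intro m _ M _ _ _ _ _ g Φ hΦ f J J' hJ hJ' h0 h0' hd t
  exact jac_unique (hΦ f).2.isGeodesic hJ hJ' h0 h0' hd t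

end Vale.Agent.P207.SPH.H761
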