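import Vale.Agent.P207.SPH.Defs
import Vale.Agent.P207.H761.SPH.Abel

/-!
P207, project SPH, row R14: Abel summation and Jensen's inequality.
-/

open Matrix MeasureTheory Set Filter Topology

noncomputable section

namespace Vale.Agent.P207.SPH.H761

/-- extension of a finite sequence by `0` -/
def ext0 {m : ℕ} (e : Fin m → ℝ) (i : ℕ) : ℝ := if h : i < m then e ⟨i, h⟩ else 0

theorem psum_eq {m : ℕ} (k : ℕ) (hk : k ≤ m) (e : Fin m → ℝ) :
    psum k e = ∑ i ∈ Finset.range k, ext0 e i := by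
  unfold psum
  have h1 : ∀ i : Fin m, (if (i : ℕ) < k then e i else 0)
      = (fun j : ℕ => if j < k then ext0 e j else 0) (i : ℕ) := by
    intro i
    simp [ext0]
  rw [Finset.sum_congr rfl fun i _ => h1 i, Fin.sum_univ_eq_sum_range
    (fun j : ℕ => if j < k then ext0 e j else 0) m, ← Finset.sum_filter]
  refine Finset.sum_congr ?_ fun _ _ => rfl
  ext i
  simp only [Finset.mem_filter, Finset.mem_range]
  omega

theorem sum_eq_ext {m : ℕ} (e : Fin m → ℝ) : ∑ i, e i = ∑ i ∈ Finset.range m, ext0 e i := by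
  have h1 : ∀ i : Fin m, e i = (fun j : ℕ => ext0 e j) (i : ℕ) := by
    intro i
    simp [ext0]
  rw [Finset.sum_congr rfl fun i _ => h1 i, Fin.sum_univ_eq_sum_range (fun j : ℕ => ext0 e j) m]

theorem sum_eq_ext' {m : ℕ} (F : ℕ → ℝ) : ∑ i : Fin m, F i = ∑ i ∈ Finset.range m, F i :=
  Fin.sum_univ_eq_sum_range F m

/-- **R14.** -/
theorem jensen : JensenStmt := by
  intro m X _ _ _ _ μ _ _ e χ hc hpos hanti hχ hk htot
  set s : ℕ → X → ℝ := fun i f => ext0 (fun j => e j f) i with hs
  set c : ℕ → ℝ := fun i => 2 * ext0 χ i with hcd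
  have hsi : ∀ (i : ℕ) (h : i < m), s i = e ⟨i, h⟩ := fun i h => by
    funext f; simp [hs, ext0, h]
  have hci : ∀ (i : ℕ) (h : i < m), c i = 2 * χ ⟨i, h⟩ := fun i h => by
    simp [hcd, ext0, h]
  have cint : ∀ g : X → ℝ, Continuous g → Integrable g μ := fun g hg =>
    hg.integrable_of_hasCompactSupport (HasCompactSupport.of_compactSpace g)
  have hint : ∀ i < m, Integrable (s i) μ := fun i hi => by
    rw [hsi i hi]; exact cint _ (hc _)
  have hcs : ∀ i < m, Continuous (s i) := fun i hi => by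
    rw [hsi i hi]; exact hc _
  have hps : ∀ i < m, ∀ x, 0 < s i x := fun i hi x => by
    rw [hsi i hi]; exact hpos _ _
  have hlog : ∀ i < m, Integrable (fun x => Real.log (s i x)) μ := fun i hi =>
    cint _ ((hcs i hi).log fun x => (hps i hi x).ne')
  have hcp : ∀ i < m, 0 < c i := fun i hi => by
    rw [hci i hi]; linarith [hχ ⟨i, hi⟩]
  have hca : ∀ i, i + 1 < m → c (i + 1) ≤ c i := fun i hi => by
    rw [hci (i + 1) hi, hci i (by omega)]
    have := hanti (show (⟨i, by omega⟩ : Fin m) ≤ ⟨i + 1, hi⟩ from Fin.mk_le_mk.2 (by omega))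
    linarith
  have hps' : ∀ k ≤ m, ∫ f, psum k (fun i => e i f) ∂μ
      = ∑ i ∈ Finset.range k, ∫ x, s i x ∂μ := fun k hk' => by
    rw [← integral_finsetSum _ fun i hi => hint i (lt_of_lt_of_le (Finset.mem_range.1 hi) hk')]
    refine integral_congr_ae (Eventually.of_forall fun f => ?_)
    exact psum_eq k hk' _
  have hk2 : ∀ k ≤ m, ∑ i ∈ Finset.range k, c i ≤ ∑ i ∈ Finset.range k, ∫ x, s i x ∂μ :=
    fun k hk' => by
      rw [← hps' k hk', hcd, ← Finset.mul_sum, ← psum_eq k hk']
      exact hk k hk'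
  have htot2 : ∑ i ∈ Finset.range m, ∫ x, s i x ∂μ = ∑ i ∈ Finset.range m, c i := by
    rw [hcd, ← Finset.mul_sum, ← sum_eq_ext, htot,
      ← integral_finsetSum _ fun i hi => hint i (Finset.mem_range.1 hi)]
    refine integral_congr_ae (Eventually.of_forall fun f => ?_)
    exact (sum_eq_ext _).symm
  have hL : ∀ f, ∑ i, Real.log (e i f) = ∑ i ∈ Finset.range m, Real.log (s i f) := fun f => by
    rw [← sum_eq_ext' fun i => Real.log (s i f)]
    refine Finset.sum_congr rfl fun i _ => ?_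
    rw [hsi i i.2]
  have hR : ∑ i, Real.log (2 * χ i) = ∑ i ∈ Finset.range m, Real.log (c i) := by
    rw [← sum_eq_ext' fun i => Real.log (c i)]
    refine Finset.sum_congr rfl fun i _ => ?_
    rw [hci i i.2]
  simp_rw [hL]
  rw [hR]
  refine ⟨Vale.Agent.P207.H761.SPH.mean_log_le m s c hps hint hlog hcp hca hk2 htot2,
    fun heq i f => ?_⟩
  have hae := Vale.Agent.P207.H761.SPH.mean_log_eq m s c hps hint hlog hcp hca hk2 htot2 heq
    i i.2
  have hcont : Continuous (s i) := hcs i i.2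
  have h3 : s i = fun _ => c i := by
    refine (Continuous.ae_eq_iff_eq μ hcont continuous_const).1 ?_
    filter_upwards [hae] with x hx using hx
  have h4 := congrFun h3 f
  rw [hsi i i.2, hci i i.2] at h4
  exact h4

end Vale.Agent.P207.SPH.H761
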